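import Vale.Agent.P281.H464.Basic

/-!
# P281 / H464: block U0 (genus zero)
-/

open Set Filter Metric Topology
open Vale.Agent.P281.H64

noncomputable section

namespace Vale.Agent.P281.H464

/-- The inversion `ℂ → ℂ ∪ {∞}`. -/
def J (w : ℂ) : OnePoint ℂ := if w = 0 then OnePoint.infty else ((w⁻¹ : ℂ) : OnePoint ℂ)

theorem J_inj : Function.Injective J := by
  intro a b h
  unfold J at h
  split_ifs at h with h1 h2 h2
  · rw [h1, h2]
  · exact absurd h (OnePoint.infty_ne_coe _)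
  · exact absurd h (OnePoint.coe_ne_infty _)
  · exact inv_injective (OnePoint.coe_injective h)

theorem map_J : map J (𝓝 (0 : ℂ)) = 𝓝 (OnePoint.infty : OnePoint ℂ) := by
  rw [← nhdsNE_sup_pure (0 : ℂ), map_sup, OnePoint.nhds_infty_eq, coclosedCompact_eq_cocompact,
    ← Metric.cobounded_eq_cocompact, map_pure]
  congr 1
  · have h1 : map J (𝓝[≠] (0 : ℂ)) = map (fun w : ℂ => ((w⁻¹ : ℂ) : OnePoint ℂ)) (𝓝[≠] (0 : ℂ)) := by
      apply Filter.map_congr
      filter_upwards [self_mem_nhdsWithin] with w hw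
      exact if_neg hw
    rw [h1, ← inv_nhdsNE_zero (α := ℂ)]
    rw [← Filter.map_inv, Filter.map_map]
    rfl
  · simp [J]

variable {E Γ : Type} [TopologicalSpace E] [Group Γ] [MulAction Γ E]

/-- The data of U0. -/
structure Mero (S : Sheets E Γ) (i : Fin S.N) (m : E → ℂ) (z₀ : ℂ) (k : ℂ → ℂ) : Prop where
  lt : ‖z₀‖ < 1
  inv : ∀ (γ : Γ) e, m (γ • e) = m e
  an : ∀ j, ∀ z ∈ ball (0 : ℂ) 3, (∀ γ : Γ, γ • S.σ i z₀ ≠ S.σ j z) →
      AnalyticAt ℂ (fun z => m (S.σ j z)) z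
  ank : AnalyticAt ℂ k z₀
  ev : ∀ᶠ z in 𝓝[≠] z₀, m (S.σ i z) = (z - z₀)⁻¹ + k z

variable {S : Sheets E Γ} {i : Fin S.N} {m : E → ℂ} {z₀ : ℂ} {k : ℂ → ℂ}

/-- Being a pole. -/
def IsPole (S : Sheets E Γ) (i : Fin S.N) (z₀ : ℂ) (e : E) : Prop := ∃ γ : Γ, γ • S.σ i z₀ = e

theorem isPole_smul (γ : Γ) (e : E) : IsPole S i z₀ (γ • e) ↔ IsPole S i z₀ e := by
  constructor
  · rintro ⟨δ, hδ⟩
    exact ⟨γ⁻¹ * δ, by rw [mul_smul, hδ, inv_smul_smul]⟩
  · rintro ⟨δ, hδ⟩
    exact ⟨γ * δ, by rw [mul_smul, hδ]⟩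

theorem isPole_sheet (h0 : ‖z₀‖ < 1) {z : ℂ} (hz : z ∈ ball (0 : ℂ) 3) :
    IsPole S i z₀ (S.σ i z) ↔ z = z₀ := by
  constructor
  · rintro ⟨δ, hδ⟩
    exact (S.inj i z₀ (lt3 h0) z hz δ hδ).2.symm
  · rintro rfl
    exact ⟨1, one_smul _ _⟩

open Classical in
/-- The map to the sphere. -/
def ff (S : Sheets E Γ) (i : Fin S.N) (m : E → ℂ) (z₀ : ℂ) (e : E) : OnePoint ℂ :=
  if IsPole S i z₀ e then OnePoint.infty else ((m e : ℂ) : OnePoint ℂ)

theorem ff_pole {e : E} (h : IsPole S i z₀ e) : ff S i m z₀ e = OnePoint.infty := if_pos h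

theorem ff_coe {e : E} (h : ¬ IsPole S i z₀ e) : ff S i m z₀ e = ((m e : ℂ) : OnePoint ℂ) :=
  if_neg h

theorem ff_eq_infty {e : E} : ff S i m z₀ e = OnePoint.infty ↔ IsPole S i z₀ e := by
  constructor
  · intro h
    by_contra hcon
    rw [ff_coe hcon] at h
    exact OnePoint.coe_ne_infty _ h
  · exact ff_pole

theorem ff_inv (H : Mero S i m z₀ k) (γ : Γ) (e : E) : ff S i m z₀ (γ • e) = ff S i m z₀ e := by
  by_cases h : IsPole S i z₀ e
  · rw [ff_pole h, ff_pole ((isPole_smul γ e).mpr h)]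
  · rw [ff_coe h, ff_coe (fun h' => h ((isPole_smul γ e).mp h')), H.inv]

theorem eventually_not_pole [ContinuousConstSMul Γ E] {e : E} (h : ¬ IsPole S i z₀ e) :
    ∀ᶠ x in 𝓝 e, ¬ IsPole S i z₀ x := by
  obtain ⟨V, hV, V', hV', hVV⟩ := exists_sep S (S.σ i z₀) e (fun γ hγ => h ⟨γ, hγ⟩)
  filter_upwards [hV'] with x hx
  rintro ⟨γ, rfl⟩
  exact hVV γ _ (mem_of_mem_nhds hV) hx

/-- The inverse of `m` near the pole. -/
def qq (z₀ : ℂ) (k : ℂ → ℂ) (z : ℂ) : ℂ := (z - z₀) / (1 + (z - z₀) * k z)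

theorem qq_zero : qq z₀ k z₀ = 0 := by simp [qq]

theorem qq_analytic (H : Mero S i m z₀ k) : AnalyticAt ℂ (qq z₀ k) z₀ := by
  unfold qq
  apply AnalyticAt.div
  · exact analyticAt_id.sub analyticAt_const
  · exact analyticAt_const.add ((analyticAt_id.sub analyticAt_const).mul H.ank)
  · simp

theorem qq_deriv (H : Mero S i m z₀ k) : deriv (qq z₀ k) z₀ = 1 := by
  have h1 : HasDerivAt (fun z => z - z₀) 1 z₀ := (hasDerivAt_id z₀).sub_const z₀
  have h2 : HasDerivAt (fun z => 1 + (z - z₀) * k z) (k z₀) z₀ := by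
    have := (h1.fun_mul H.ank.differentiableAt.hasDerivAt).const_add 1
    simpa using this
  have h3 := h1.fun_div h2 (by simp)
  have h4 : HasDerivAt (qq z₀ k) 1 z₀ := by
    refine h3.congr_deriv ?_
    simp
  exact h4.deriv

theorem qq_map (H : Mero S i m z₀ k) : map (qq z₀ k) (𝓝 z₀) = 𝓝 (0 : ℂ) := by
  have h := (qq_analytic H).hasStrictDerivAt.map_nhds_eq (by rw [qq_deriv H]; exact one_ne_zero)
  rwa [qq_zero] at h

theorem qq_inj (H : Mero S i m z₀ k) : ∃ V ∈ 𝓝 z₀, InjOn (qq z₀ k) V := by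
  have hs := (qq_analytic H).hasStrictDerivAt
  have hne : deriv (qq z₀ k) z₀ ≠ 0 := by rw [qq_deriv H]; exact one_ne_zero
  refine ⟨_, hs.eventually_left_inverse hne, ?_⟩
  intro a ha b hb hab
  rw [Set.mem_ofPred_eq] at ha hb
  rw [← ha, ← hb, hab]

theorem ff_near (H : Mero S i m z₀ k) :
    ∀ᶠ z in 𝓝 z₀, ff S i m z₀ (S.σ i z) = J (qq z₀ k z) := by
  have hk : ∀ᶠ z in 𝓝 z₀, 1 + (z - z₀) * k z ≠ 0 := by
    have : ContinuousAt (fun z => 1 + (z - z₀) * k z) z₀ := by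
      have := H.ank.continuousAt
      fun_prop
    exact this.eventually_ne (by simp)
  have h1 := H.ev
  rw [eventually_nhdsWithin_iff] at h1
  filter_upwards [hk, h1, isOpen_ball.mem_nhds (lt3 H.lt)] with z hz1 hz2 hz3
  by_cases hz : z = z₀
  · subst hz
    rw [ff_pole ((isPole_sheet H.lt hz3).mpr rfl), qq_zero]
    simp [J]
  · have hz' : z - z₀ ≠ 0 := sub_ne_zero.mpr hz
    rw [ff_coe (fun h => hz ((isPole_sheet H.lt hz3).mp h)), hz2 hz]
    have hq : qq z₀ k z ≠ 0 := div_ne_zero hz' hz1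
    unfold J
    rw [if_neg hq]
    congr 1
    unfold qq
    rw [inv_div]
    field_simp

theorem map_ff_pole [ContinuousConstSMul Γ E] (H : Mero S i m z₀ k) {e : E}
    (he : IsPole S i z₀ e) : map (ff S i m z₀) (𝓝 e) = 𝓝 (ff S i m z₀ e) := by
  rw [ff_pole he]
  obtain ⟨γ, rfl⟩ := he
  rw [← nhds_sheet S γ i (lt3 H.lt), map_map]
  have h1 : ((ff S i m z₀) ∘ fun u => γ • S.σ i u) =ᶠ[𝓝 z₀] J ∘ qq z₀ k := by
    filter_upwards [ff_near H] with z hz
    simp only [Function.comp]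
    rw [ff_inv H, hz]
  rw [map_congr h1, ← map_map, qq_map H, map_J]

theorem ff_near_coe [ContinuousConstSMul Γ E] (H : Mero S i m z₀ k) {γ : Γ} {j : Fin S.N} {z : ℂ}
    (hz : z ∈ ball (0 : ℂ) 3) (he : ¬ IsPole S i z₀ (S.σ j z)) :
    ((ff S i m z₀) ∘ fun u => γ • S.σ j u) =ᶠ[𝓝 z] fun u => ((m (S.σ j u) : ℂ) : OnePoint ℂ) := by
  have h1 := (continuousAt_sheet S j hz).eventually (eventually_not_pole he)
  filter_upwards [h1] with u hu
  simp only [Function.comp]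
  rw [ff_inv H, ff_coe hu]

theorem an_at (H : Mero S i m z₀ k) {j : Fin S.N} {z : ℂ}
    (hz : z ∈ ball (0 : ℂ) 3) (he : ¬ IsPole S i z₀ (S.σ j z)) :
    AnalyticAt ℂ (fun u => m (S.σ j u)) z :=
  H.an j z hz (fun γ hγ => he ⟨γ, hγ⟩)

theorem ff_continuous [ContinuousConstSMul Γ E] (H : Mero S i m z₀ k) :
    Continuous (ff S i m z₀) := by
  rw [continuous_iff_continuousAt]
  intro e
  by_cases he : IsPole S i z₀ e
  · exact (map_ff_pole H he).le
  · obtain ⟨γ, j, z, hz, rfl⟩ := S.cover e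
    have he' : ¬ IsPole S i z₀ (S.σ j z) := fun h => he ((isPole_smul γ _).mpr h)
    unfold ContinuousAt
    rw [← nhds_sheet S γ j (lt3 hz), tendsto_map'_iff]
    refine Tendsto.congr' (ff_near_coe H (lt3 hz) he').symm ?_
    rw [ff_coe he, H.inv]
    exact (OnePoint.continuous_coe.tendsto _).comp (an_at H (lt3 hz) he').continuousAt

/-- `ff` is nowhere locally constant. -/
theorem not_const [ContinuousConstSMul Γ E] [PreconnectedSpace E] (H : Mero S i m z₀ k) (e : E) :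
    ¬ ∀ᶠ x in 𝓝 e, ff S i m z₀ x = ff S i m z₀ e := by
  let L : Set E := {e | ∀ᶠ x in 𝓝 e, ff S i m z₀ x = ff S i m z₀ e}
  -- near a pole
  have hpole : ∀ e, IsPole S i z₀ e → ∀ᶠ x in 𝓝 e, x ∉ L := by
    rintro _ ⟨γ, rfl⟩
    obtain ⟨V, hV, hVi⟩ := qq_inj H
    rw [← nhds_sheet S γ i (lt3 H.lt), eventually_map]
    have h1 : ∀ᶠ z in 𝓝 z₀, z ∈ V ∧ ff S i m z₀ (S.σ i z) = J (qq z₀ k z) :=
      (show ∀ᶠ z in 𝓝 z₀, z ∈ V from hV).and (ff_near H)
    filter_upwards [h1.eventually_nhds, isOpen_ball.mem_nhds (lt3 H.lt)] with z hz hz3 hzL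
    have h2 : ∀ᶠ u in 𝓝 z, ff S i m z₀ (γ • S.σ i u) = ff S i m z₀ (γ • S.σ i z) :=
      (tendsto_sheet S γ i hz3).eventually hzL
    have h3 : ∀ᶠ u in 𝓝 z, u = z := by
      filter_upwards [h2, hz] with u hu hu'
      rw [ff_inv H, ff_inv H, hu'.2, hz.self_of_nhds.2] at hu
      exact hVi hu'.1 hz.self_of_nhds.1 (J_inj hu)
    have h4 : ∀ᶠ u in 𝓝[≠] z, False := by
      filter_upwards [h3.filter_mono nhdsWithin_le_nhds, self_mem_nhdsWithin] with u hu hu'
      exact hu' hu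
    exact h4.exists.elim fun _ h => h
  have hLo : IsOpen L := by
    rw [isOpen_iff_mem_nhds]
    intro x hx
    have hx' : ∀ᶠ y in 𝓝 x, ff S i m z₀ y = ff S i m z₀ x := hx
    filter_upwards [hx'.eventually_nhds] with y hy
    have h1 := hy.self_of_nhds
    filter_upwards [hy] with w hw
    rw [hw, h1]
  have hLc : IsClosed L := by
    rw [← isOpen_compl_iff, isOpen_iff_mem_nhds]
    intro x hx
    by_cases hxp : IsPole S i z₀ x
    · exact hpole x hxp
    obtain ⟨γ, j, z, hz, rfl⟩ := S.cover x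
    have he' : ¬ IsPole S i z₀ (S.σ j z) := fun h => hxp ((isPole_smul γ _).mpr h)
    have han := an_at H (lt3 hz) he'
    have key : ∀ u ∈ ball (0 : ℂ) 3, ¬ IsPole S i z₀ (S.σ j u) → γ • S.σ j u ∈ L →
        ∀ᶠ v in 𝓝 u, m (S.σ j v) = m (S.σ j u) := by
      intro u hu hup huL
      have h1 := (tendsto_sheet S γ j hu).eventually huL
      have h2 := ff_near_coe H (γ := γ) hu hup
      filter_upwards [h1, h2] with v hv hv'
      simp only [Function.comp] at hv'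
      rw [hv', ff_inv H, ff_coe hup] at hv
      exact OnePoint.coe_injective hv
    have hcl : ∀ u ∈ ball (0 : ℂ) 3, ¬ IsPole S i z₀ (S.σ j u) →
        (∀ᶠ v in 𝓝 u, m (S.σ j v) = m (S.σ j u)) → γ • S.σ j u ∈ L := by
      intro u hu hup h
      change ∀ᶠ x in 𝓝 (γ • S.σ j u), _
      rw [← nhds_sheet S γ j hu, eventually_map]
      filter_upwards [h, ff_near_coe H (γ := γ) hu hup] with v hv hv'
      simp only [Function.comp] at hv'
      rw [hv', ff_inv H, ff_coe hup, hv]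
    have hnc : ¬ ∀ᶠ v in 𝓝 z, m (S.σ j v) = m (S.σ j z) := fun h => hx (hcl z (lt3 hz) he' h)
    rw [← nhds_sheet S γ j (lt3 hz)]
    rcases han.deriv.eventually_eq_zero_or_eventually_ne_zero with h0 | h0
    · exfalso
      apply hnc
      obtain ⟨r, hr, hball⟩ := Metric.eventually_nhds_iff_ball.mp (h0.and han.eventually_analyticAt)
      filter_upwards [Metric.ball_mem_nhds z hr] with v hv
      refine (convex_ball z r).is_const_of_fderivWithin_eq_zero (𝕜 := ℂ)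
        (f := fun v => m (S.σ j v)) ?_ ?_ hv (mem_ball_self hr)
      · exact fun u hu => (hball u hu).2.differentiableAt.differentiableWithinAt
      · intro u hu
        rw [fderivWithin_of_isOpen isOpen_ball hu]
        ext
        simpa using (hball u hu).1
    · rw [eventually_nhdsWithin_iff] at h0
      have hnp := (continuousAt_sheet S j (lt3 hz)).eventually (eventually_not_pole he')
      change ∀ᶠ u in 𝓝 z, _
      filter_upwards [h0, hnp, isOpen_ball.mem_nhds (lt3 hz)] with u hu hup hu3 huL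
      by_cases huz : u = z
      · subst huz
        exact hx huL
      · have h1 := key u hu3 hup huL
        apply hu huz
        have h2 : (fun v => m (S.σ j v)) =ᶠ[𝓝 u] fun _ => m (S.σ j u) := h1
        rw [h2.deriv_eq, deriv_const]
  have hp : S.σ i z₀ ∉ L := (hpole _ ⟨1, one_smul _ _⟩).self_of_nhds
  intro he
  have hLuniv : L = univ := IsClopen.eq_univ ⟨hLc, hLo⟩ ⟨e, he⟩
  exact hp (hLuniv ▸ mem_univ _)

theorem not_const' [ContinuousConstSMul Γ E] [PreconnectedSpace E] (H : Mero S i m z₀ k)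
    {j : Fin S.N} {z : ℂ} (hz : z ∈ ball (0 : ℂ) 3) (he : ¬ IsPole S i z₀ (S.σ j z)) :
    ¬ ∀ᶠ v in 𝓝 z, m (S.σ j v) = m (S.σ j z) := by
  intro h
  apply not_const H ((1 : Γ) • S.σ j z)
  rw [← nhds_sheet S (1 : Γ) j hz, eventually_map]
  filter_upwards [h, ff_near_coe H (γ := 1) hz he] with v hv hv'
  simp only [Function.comp] at hv'
  rw [hv', ff_inv H, ff_coe he, hv]

theorem ff_isOpenMap [ContinuousConstSMul Γ E] [PreconnectedSpace E] (H : Mero S i m z₀ k) :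
    IsOpenMap (ff S i m z₀) := by
  rw [isOpenMap_iff_nhds_le]
  intro e
  by_cases he : IsPole S i z₀ e
  · exact (map_ff_pole H he).ge
  · obtain ⟨γ, j, z, hz, rfl⟩ := S.cover e
    have he' : ¬ IsPole S i z₀ (S.σ j z) := fun h => he ((isPole_smul γ _).mpr h)
    rw [← nhds_sheet S γ j (lt3 hz), map_map, map_congr (ff_near_coe H (lt3 hz) he'), ff_coe he,
      H.inv, OnePoint.nhds_coe_eq]
    have h1 := ((an_at H (lt3 hz) he').eventually_constant_or_nhds_le_map_nhds).resolve_left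
      (not_const' H (lt3 hz) he')
    have h2 : map (fun u => ((m (S.σ j u) : ℂ) : OnePoint ℂ)) (𝓝 z) =
      map ((↑) : ℂ → OnePoint ℂ) (map (fun u => m (S.σ j u)) (𝓝 z)) := by
      rw [map_map]; rfl
    rw [h2]
    exact map_mono h1

theorem ff_alt [ContinuousConstSMul Γ E] [PreconnectedSpace E] (H : Mero S i m z₀ k) (e : E) :
    Good Γ (ff S i m z₀) e ∨ (¬ IsPole S i z₀ e ∧ Bad Γ (ff S i m z₀) e) := by
  by_cases he : IsPole S i z₀ e
  · left
    obtain ⟨γ, rfl⟩ := he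
    obtain ⟨V, hV, hVi⟩ := qq_inj H
    have h1 : ∀ᶠ z in 𝓝 z₀, z ∈ V ∧ ff S i m z₀ (S.σ i z) = J (qq z₀ k z) :=
      (show ∀ᶠ z in 𝓝 z₀, z ∈ V from hV).and (ff_near H)
    refine ⟨(fun u => γ • S.σ i u) '' {z | z ∈ V ∧ ff S i m z₀ (S.σ i z) = J (qq z₀ k z)},
      ?_, ?_⟩
    · rw [← nhds_sheet S γ i (lt3 H.lt)]
      exact image_mem_map h1
    · rintro _ ⟨u, hu, rfl⟩ _ ⟨v, hv, rfl⟩ huv
      simp only at huv
      rw [ff_inv H, ff_inv H, hu.2, hv.2] at huv
      rw [hVi hu.1 hv.1 (J_inj huv)]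
      exact ⟨1, one_smul _ _⟩
  · obtain ⟨γ, j, z, hz, rfl⟩ := S.cover e
    have he' : ¬ IsPole S i z₀ (S.σ j z) := fun h => he ((isPole_smul γ _).mpr h)
    have han := an_at H (lt3 hz) he'
    have hnear := ff_near_coe H (γ := γ) (lt3 hz) he'
    by_cases hd : deriv (fun u => m (S.σ j u)) z = 0
    · right
      refine ⟨he, ?_⟩
      intro V hV
      have hV' : ∀ᶠ u in 𝓝 z, γ • S.σ j u ∈ V := (tendsto_sheet S γ j (lt3 hz)).eventually hV
      have hU := (hV'.and hnear).and (isOpen_ball.mem_nhds (lt3 hz))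
      have h2 := two_pre han (not_const' H (lt3 hz) he') hd hU
      rw [ff_coe he, H.inv, OnePoint.nhdsWithin_coe, eventually_map]
      have h3 : ((↑) : ℂ → OnePoint ℂ) ⁻¹' {((m (S.σ j z) : ℂ) : OnePoint ℂ)}ᶜ
          = {m (S.σ j z)}ᶜ := by
        ext w
        simp
      rw [h3]
      filter_upwards [h2] with y hy
      obtain ⟨z₁, ⟨⟨h11, h12⟩, h13⟩, z₂, ⟨⟨h21, h22⟩, h23⟩, hne, hy1, hy2⟩ := hy
      refine ⟨_, h11, _, h21, ?_, ?_, ?_⟩
      · simp only [Function.comp] at h12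
        rw [h12, hy1]
      · simp only [Function.comp] at h22
        rw [h22, hy2]
      · intro δ hδ
        have h4 : (γ⁻¹ * δ * γ) • S.σ j z₁ = S.σ j z₂ := by
          rw [mul_smul, mul_smul, hδ, inv_smul_smul]
        exact hne (S.inj j z₁ h13 z₂ h23 _ h4).2
    · left
      have hs := han.hasStrictDerivAt
      have h1 := (hs.eventually_left_inverse hd).and hnear
      refine ⟨(fun u => γ • S.σ j u) '' {u | hs.localInverse _ _ _ hd (m (S.σ j u)) = u ∧
        ((ff S i m z₀) ∘ fun u => γ • S.σ j u) u = ((m (S.σ j u) : ℂ) : OnePoint ℂ)}, ?_, ?_⟩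
      · rw [← nhds_sheet S γ j (lt3 hz)]
        exact image_mem_map h1
      · rintro _ ⟨u, ⟨hu, hu'⟩, rfl⟩ _ ⟨v, ⟨hv, hv'⟩, rfl⟩ huv
        simp only [Function.comp] at huv hu' hv'
        rw [hu', hv'] at huv
        have h2 : m (S.σ j u) = m (S.σ j v) := OnePoint.coe_injective huv
        rw [← hu, h2, hv]
        exact ⟨1, one_smul _ _⟩

theorem ff_main [ContinuousConstSMul Γ E] [PreconnectedSpace E] (H : Mero S i m z₀ k) :
    Function.Surjective (ff S i m z₀) ∧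
    (∀ e e', ff S i m z₀ e = ff S i m z₀ e' → ∃ γ : Γ, γ • e = e') ∧
    ∀ e, Good Γ (ff S i m z₀) e := by
  refine cover_lemma (isCompact_KK S) (exists_mem_KK S) (ff_continuous H) (ff_inv H)
    (ff_isOpenMap H) (exists_sep S) (fun e => (ff_alt H e).imp_right And.right)
    (e₀ := S.σ i z₀) ?_ ?_
  · intro e he
    rw [ff_pole (e := S.σ i z₀) ⟨1, one_smul _ _⟩, ff_eq_infty] at he
    exact he
  · rcases ff_alt H (S.σ i z₀) with h | h
    · exact h
    · exact absurd ⟨1, one_smul _ _⟩ h.1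

theorem deriv_ne [ContinuousConstSMul Γ E] [PreconnectedSpace E] (H : Mero S i m z₀ k)
    {j : Fin S.N} {z : ℂ} (hz : z ∈ ball (0 : ℂ) 3) (he : ¬ IsPole S i z₀ (S.σ j z)) :
    deriv (fun u => m (S.σ j u)) z ≠ 0 := by
  intro hd
  obtain ⟨V, hV, hVg⟩ := (ff_main H).2.2 ((1 : Γ) • S.σ j z)
  have hV' : ∀ᶠ u in 𝓝 z, (1 : Γ) • S.σ j u ∈ V := (tendsto_sheet S 1 j hz).eventually hV
  have hU := (hV'.and (ff_near_coe H (γ := 1) hz he)).and (isOpen_ball.mem_nhds hz)
  have h2 := two_pre (an_at H hz he) (not_const' H hz he) hd hU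
  obtain ⟨y, z₁, ⟨⟨h11, h12⟩, h13⟩, z₂, ⟨⟨h21, h22⟩, h23⟩, hne, hy1, hy2⟩ := h2.exists
  simp only [Function.comp] at h12 h22
  obtain ⟨δ, hδ⟩ := hVg _ h11 _ h21 (by rw [h12, h22, hy1, hy2])
  rw [one_smul, one_smul] at hδ
  exact hne (S.inj j z₁ h13 z₂ h23 _ hδ).2

/-! ### additive functions -/

section
variable [ContinuousConstSMul Γ E] [PreconnectedSpace E] (H : Mero S i m z₀ k)
  {h : E → ℂ} {c : Γ → ℂ} (hh : Add S h c)

include H hh in
/-- The quotient `dh / dm` depends on the value of `m` only. -/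
theorem quot_eq {j j' : Fin S.N} {z z' : ℂ} (hz : z ∈ ball (0 : ℂ) 3)
    (hz' : z' ∈ ball (0 : ℂ) 3) (he : ¬ IsPole S i z₀ (S.σ j z))
    (he' : ¬ IsPole S i z₀ (S.σ j' z')) (hm : m (S.σ j' z') = m (S.σ j z)) :
    deriv (fun u => h (S.σ j' u)) z' / deriv (fun u => m (S.σ j' u)) z' =
      deriv (fun u => h (S.σ j u)) z / deriv (fun u => m (S.σ j u)) z := by
  obtain ⟨δ, hδ⟩ := (ff_main H).2.1 (S.σ j z) (S.σ j' z') (by rw [ff_coe he, ff_coe he', hm])
  obtain ⟨θ, h1, h2, h3⟩ := S.hol j' j z' hz' z hz δ hδ.symm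
  have h4 := deriv_change S hz h1 h2 h3 (h := h) (s := c δ) (hh.add δ)
    (add_diffAt hh j hz).differentiableAt
  have h5 := deriv_change S hz h1 h2 h3 (h := m) (s := 0) (fun e => by rw [H.inv, add_zero])
    (an_at H hz he).differentiableAt
  have h6 := deriv_ne H hz' he'
  rw [h4, h5]
  rw [h5] at h6
  have h7 : deriv θ z' ≠ 0 := right_ne_zero_of_mul h6
  rw [mul_div_mul_right _ _ h7]

include H in
theorem exists_pt (w : ℂ) : ∃ (j : Fin S.N) (z : ℂ), ‖z‖ < 1 ∧ ¬ IsPole S i z₀ (S.σ j z) ∧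
    m (S.σ j z) = w := by
  obtain ⟨e, he⟩ := (ff_main H).1 (w : OnePoint ℂ)
  obtain ⟨γ, j, z, hz, rfl⟩ := S.cover e
  rw [ff_inv H] at he
  have hp : ¬ IsPole S i z₀ (S.σ j z) := by
    intro hp
    rw [ff_pole hp] at he
    exact OnePoint.infty_ne_coe _ he
  rw [ff_coe hp] at he
  exact ⟨j, z, hz, hp, OnePoint.coe_injective he⟩

open Classical in
/-- `dh / dm` as a function on `ℂ`. -/
def gg (w : ℂ) : ℂ :=
  deriv (fun u => h (S.σ (exists_pt H w).choose u)) (exists_pt H w).choose_spec.choose /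
    deriv (fun u => m (S.σ (exists_pt H w).choose u)) (exists_pt H w).choose_spec.choose

include hh in
theorem gg_eq {j : Fin S.N} {z : ℂ} (hz : z ∈ ball (0 : ℂ) 3)
    (he : ¬ IsPole S i z₀ (S.σ j z)) :
    gg H (h := h) (m (S.σ j z)) =
      deriv (fun u => h (S.σ j u)) z / deriv (fun u => m (S.σ j u)) z := by
  obtain ⟨h1, h2, h3⟩ := (exists_pt H (m (S.σ j z))).choose_spec.choose_spec
  exact quot_eq H hh hz (lt3 h1) he h2 h3

include hh in
theorem gg_diff : Differentiable ℂ (gg H (h := h)) := by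
  intro w
  obtain ⟨j, z, hz, hp, rfl⟩ := exists_pt H w
  have han := an_at H (lt3 hz) hp
  have hd := deriv_ne H (lt3 hz) hp
  have hs := han.hasStrictDerivAt
  have hth := (hs.to_localInverse hd).hasDerivAt
  set θ := hs.localInverse (fun u => m (S.σ j u)) _ z hd with hθ
  have hθz : θ (m (S.σ j z)) = z := HasStrictFDerivAt.localInverse_apply_image ..
  have hr := hs.eventually_right_inverse hd
  have hcont : Tendsto θ (𝓝 (m (S.σ j z))) (𝓝 z) := by
    have := hth.continuousAt.tendsto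
    rwa [hθz] at this
  have h1 := hcont.eventually (isOpen_ball.mem_nhds (lt3 hz))
  have h2 := hcont.eventually
    ((continuousAt_sheet S j (lt3 hz)).eventually (eventually_not_pole hp))
  have h3 : gg H (h := h) =ᶠ[𝓝 (m (S.σ j z))] fun w =>
      deriv (fun u => h (S.σ j u)) (θ w) / deriv (fun u => m (S.σ j u)) (θ w) := by
    filter_upwards [h1, h2, hr] with w hw1 hw2 hw3
    rw [← gg_eq H hh hw1 hw2]
    congr 1
    exact hw3.symm
  refine DifferentiableAt.congr_of_eventuallyEq ?_ h3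
  have h4 : DifferentiableAt ℂ (fun z => deriv (fun u => h (S.σ j u)) z) (θ (m (S.σ j z))) := by
    rw [hθz]
    exact (add_diffAt hh j (lt3 hz)).deriv.differentiableAt
  have h5 : DifferentiableAt ℂ (fun z => deriv (fun u => m (S.σ j u)) z) (θ (m (S.σ j z))) := by
    rw [hθz]
    exact han.deriv.differentiableAt
  have h6 := hth.differentiableAt
  refine DifferentiableAt.fun_div (h4.comp (m (S.σ j z)) h6) (h5.comp (m (S.σ j z)) h6) ?_
  rw [hθz]
  exact hd

omit [ContinuousConstSMul Γ E] [PreconnectedSpace E] in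
theorem deriv_near_pole (H : Mero S i m z₀ k) :
    ∀ᶠ z in 𝓝[≠] z₀, deriv (fun u => m (S.σ i u)) z = -((z - z₀) ^ 2)⁻¹ + deriv k z := by
  have h1 := H.ev
  have h2 : ∀ᶠ z in 𝓝[≠] z₀, ∀ᶠ u in 𝓝 z, m (S.σ i u) = (u - z₀)⁻¹ + k u := by
    rw [eventually_nhdsWithin_iff] at h1 ⊢
    filter_upwards [h1.eventually_nhds] with z hz hne
    have h3 : ∀ᶠ u in 𝓝 z, u ≠ z₀ := isOpen_ne.mem_nhds hne
    filter_upwards [hz, h3] with u hu hu'
    exact hu hu'
  have h4 : ∀ᶠ z in 𝓝[≠] z₀, AnalyticAt ℂ k z :=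
    H.ank.eventually_analyticAt.filter_mono nhdsWithin_le_nhds
  filter_upwards [h2, h4, self_mem_nhdsWithin] with z hz hk hne
  have h5 : (fun u => m (S.σ i u)) =ᶠ[𝓝 z] fun u => (u - z₀)⁻¹ + k u := hz
  rw [h5.deriv_eq]
  have hne' : z - z₀ ≠ 0 := sub_ne_zero.mpr hne
  have h6 : HasDerivAt (fun u => (u - z₀)⁻¹) (-1 / (z - z₀) ^ 2) z :=
    ((hasDerivAt_id z).sub_const z₀).fun_inv hne'
  have h7 := h6.fun_add hk.differentiableAt.hasDerivAt
  rw [h7.deriv]
  congr 1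
  rw [neg_div, one_div]

include hh in
theorem gg_tendsto : Tendsto (gg H (h := h)) (cocompact ℂ) (𝓝 0) := by
  rw [← Metric.cobounded_eq_cocompact, ← inv_nhdsNE_zero (α := ℂ), ← Filter.map_inv,
    tendsto_map'_iff]
  have hq : map (qq z₀ k) (𝓝[≠] z₀) = 𝓝[≠] (0 : ℂ) := by
    have hs := (qq_analytic H).hasStrictDerivAt
    have hne : deriv (qq z₀ k) z₀ ≠ 0 := by rw [qq_deriv H]; exact one_ne_zero
    apply le_antisymm
    · refine le_inf ((map_mono nhdsWithin_le_nhds).trans (qq_map H).le) ?_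
      rw [le_principal_iff, mem_map, mem_nhdsWithin_iff_eventually]
      filter_upwards [hs.eventually_left_inverse hne] with z hz hz' h0
      rw [mem_singleton_iff] at h0
      apply hz'
      have h1 : hs.localInverse (qq z₀ k) _ z₀ hne (qq z₀ k z₀) = z₀ :=
        HasStrictFDerivAt.localInverse_apply_image ..
      rw [mem_singleton_iff, ← hz, h0, ← qq_zero (z₀ := z₀) (k := k), h1]
    · intro V hV
      rw [mem_map, mem_nhdsWithin_iff_eventually] at hV
      have h1 := image_mem_map (m := qq z₀ k) hV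
      rw [qq_map H] at h1
      rw [mem_nhdsWithin_iff_eventually]
      filter_upwards [h1] with w hw hw0
      obtain ⟨z, hz, rfl⟩ := hw
      exact hz (fun h => hw0 (by rw [mem_singleton_iff] at h ⊢; rw [h, qq_zero]))
  rw [← hq, tendsto_map'_iff]
  have h1 : ∀ᶠ z in 𝓝[≠] z₀, ((gg H (h := h) ∘ fun w => w⁻¹) ∘ qq z₀ k) z =
      deriv (fun u => h (S.σ i u)) z * (z - z₀) ^ 2 / (-1 + deriv k z * (z - z₀) ^ 2) := by
    have h2 := deriv_near_pole H
    have h3 := (ff_near H).filter_mono (nhdsWithin_le_nhds (s := {z₀}ᶜ))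
    have h4 : ∀ᶠ z in 𝓝[≠] z₀, z ∈ ball (0 : ℂ) 3 :=
      (show ∀ᶠ z in 𝓝 z₀, z ∈ ball (0 : ℂ) 3 from isOpen_ball.mem_nhds (lt3 H.lt)).filter_mono
        nhdsWithin_le_nhds
    filter_upwards [h2, h3, h4, self_mem_nhdsWithin] with z hz1 hz2 hz3 hz4
    have hp : ¬ IsPole S i z₀ (S.σ i z) := fun hp => hz4 ((isPole_sheet H.lt hz3).mp hp)
    rw [ff_coe hp] at hz2
    have hq0 : qq z₀ k z ≠ 0 := by
      intro h0
      rw [h0] at hz2
      simp [J] at hz2
    unfold J at hz2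
    rw [if_neg hq0] at hz2
    have hm := OnePoint.coe_injective hz2
    simp only [Function.comp]
    rw [← hm, gg_eq H hh hz3 hp, hz1]
    have hz5 : z - z₀ ≠ 0 := sub_ne_zero.mpr hz4
    have hd := deriv_ne H hz3 hp
    rw [hz1] at hd
    rw [div_eq_div_iff hd]
    · field_simp
    · intro h0
      apply hd
      field_simp
      linear_combination h0
  rw [tendsto_congr' h1]
  have h2 : ContinuousAt (fun z => deriv (fun u => h (S.σ i u)) z * (z - z₀) ^ 2 /
      (-1 + deriv k z * (z - z₀) ^ 2)) z₀ := by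
    have h3 := (add_diffAt hh i (lt3 H.lt)).deriv.continuousAt
    have h4 := H.ank.deriv.continuousAt
    refine ContinuousAt.div ?_ ?_ ?_
    · fun_prop
    · fun_prop
    · simp
  have h5 := h2.tendsto.mono_left (nhdsWithin_le_nhds (s := {z₀}ᶜ))
  simpa using h5

include H hh in
theorem add_trivial [Nonempty E] (γ : Γ) : c γ = 0 := by
  have h1 : ∀ w, gg H (h := h) w = 0 := fun w =>
    (gg_diff H hh).apply_eq_of_tendsto_cocompact w (gg_tendsto H hh)
  have h2 : ∀ j, ∀ z ∈ ball (0 : ℂ) 3, ¬ IsPole S i z₀ (S.σ j z) →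
      deriv (fun u => h (S.σ j u)) z = 0 := by
    intro j z hz hp
    have h3 := gg_eq H hh hz hp
    rw [h1] at h3
    rcases div_eq_zero_iff.mp h3.symm with h4 | h4
    · exact h4
    · exact absurd h4 (deriv_ne H hz hp)
  have h3 : ∀ j, ∀ z ∈ ball (0 : ℂ) 3, deriv (fun u => h (S.σ j u)) z = 0 := by
    intro j z hz
    by_cases hp : IsPole S i z₀ (S.σ j z)
    · have h4 : ∀ᶠ u in 𝓝[≠] z, deriv (fun u => h (S.σ j u)) u = 0 := by
        obtain ⟨δ, hδ⟩ := hp
        rw [eventually_nhdsWithin_iff]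
        filter_upwards [isOpen_ball.mem_nhds hz] with u hu3 hne
        apply h2 j u hu3
        rintro ⟨ε, hε⟩
        apply hne
        refine (S.inj j u hu3 z hz (δ * ε⁻¹) ?_).2
        rw [← hε, mul_smul, inv_smul_smul, hδ]
      have h5 : Tendsto (fun u => deriv (fun u => h (S.σ j u)) u) (𝓝[≠] z)
          (𝓝 (deriv (fun u => h (S.σ j u)) z)) :=
        (add_diffAt hh j hz).deriv.continuousAt.tendsto.mono_left nhdsWithin_le_nhds
      have h6 : Tendsto (fun u => deriv (fun u => h (S.σ j u)) u) (𝓝[≠] z) (𝓝 0) :=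
        (tendsto_congr' h4).mpr tendsto_const_nhds
      exact tendsto_nhds_unique h5 h6
    · exact h2 j z hz hp
  obtain ⟨e⟩ := ‹Nonempty E›
  have h4 := const_of_deriv S hh h3 (γ • e) e
  rw [hh.add] at h4
  simpa using h4

end

/-- **U0** -/
theorem u0 : U0Stmt := by
  intro E Γ _ _ _ _ _ _ S i m z₀ k h0 hinv han hk hev
  have H : Mero S i m z₀ k := ⟨h0, hinv, han, hk, hev⟩
  refine ⟨?_, ?_, ?_, ?_⟩
  · intro w
    obtain ⟨j, z, -, hp, hm⟩ := exists_pt H w
    exact ⟨S.σ j z, hm, fun γ hγ => hp ⟨γ, hγ⟩⟩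
  · intro e e' he he' hm
    refine (ff_main H).2.1 e e' ?_
    rw [ff_coe (fun ⟨γ, hγ⟩ => he γ hγ), ff_coe (fun ⟨γ, hγ⟩ => he' γ hγ), hm]
  · intro j z hz hp
    exact deriv_ne H hz (fun ⟨γ, hγ⟩ => hp γ hγ)
  · intro h c hh γ
    exact add_trivial H hh γ

end Vale.Agent.P281.H464
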