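import Mathlib

/-!
# P281 / H464: a local action of `ℂ` integrates; application to local homeomorphisms with
sections on balls of uniform radius.
-/

open Set Filter Metric Topology

noncomputable section

namespace Vale.Agent.P281.H464

section flow
variable {E : Type*} {T : ℂ → E → E} {r : ℝ}

/-- iterates of the local flow -/
def It (T : ℂ → E → E) (v : ℂ) (k : ℕ) : E → E := (T (v / 2 ^ k))^[2 ^ k]

theorem norm_div_two_pow (v : ℂ) (k : ℕ) : ‖v / 2 ^ k‖ = ‖v‖ / 2 ^ k := by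
  rw [norm_div, norm_pow]
  norm_num

theorem It_succ (h1 : ∀ v w e, ‖v‖ < r → ‖w‖ < r → T v (T w e) = T (v + w) e) {v : ℂ} {k : ℕ}
    (hk : ‖v‖ / 2 ^ k < r) : It T v (k + 1) = It T v k := by
  have h3 : ‖v / 2 ^ (k + 1)‖ < r := by
    rw [norm_div_two_pow, pow_succ]
    have : ‖v‖ / (2 ^ k * 2) = ‖v‖ / 2 ^ k / 2 := by rw [div_div]
    rw [this]
    have h0 : 0 ≤ ‖v‖ / 2 ^ k := by positivity
    linarith
  have h2 : T (v / 2 ^ k) = (T (v / 2 ^ (k + 1)))^[2] := by
    funext e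
    simp only [Function.iterate_succ, Function.iterate_zero, Function.comp, id]
    rw [h1 _ _ _ h3 h3]
    congr 1
    rw [pow_succ]
    field_simp
    norm_num
  unfold It
  rw [h2, ← Function.iterate_mul, ← pow_succ']

theorem It_eq (h1 : ∀ v w e, ‖v‖ < r → ‖w‖ < r → T v (T w e) = T (v + w) e) {v : ℂ} {k : ℕ}
    (hk : ‖v‖ / 2 ^ k < r) : ∀ l, k ≤ l → It T v l = It T v k := by
  intro l hl
  induction l, hl using Nat.le_induction with
  | base => rfl
  | succ l hl ih =>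
    rw [It_succ h1 ?_, ih]
    refine lt_of_le_of_lt ?_ hk
    exact div_le_div_of_nonneg_left (norm_nonneg _) (by positivity)
      (pow_le_pow_right₀ (by norm_num) hl)

theorem exists_k (hr : 0 < r) (v : ℂ) : ∃ k : ℕ, ‖v‖ / 2 ^ k < r := by
  obtain ⟨k, hk⟩ := pow_unbounded_of_one_lt (‖v‖ / r) (by norm_num : (1 : ℝ) < 2)
  refine ⟨k, ?_⟩
  rw [div_lt_iff₀ (by positivity)]
  rw [div_lt_iff₀ hr] at hk
  linarith

/-- the flow -/
def Fl (T : ℂ → E → E) (hr : 0 < r) (v : ℂ) : E → E := It T v (exists_k hr v).choose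

theorem Fl_eq (hr : 0 < r) (h1 : ∀ v w e, ‖v‖ < r → ‖w‖ < r → T v (T w e) = T (v + w) e)
    {v : ℂ} {k : ℕ} (hk : ‖v‖ / 2 ^ k < r) : Fl T hr v = It T v k := by
  have h2 := (exists_k hr v).choose_spec
  unfold Fl
  rw [← It_eq h1 h2 (max (exists_k hr v).choose k) (le_max_left _ _),
    ← It_eq h1 hk (max (exists_k hr v).choose k) (le_max_right _ _)]

theorem Fl_small (hr : 0 < r) (h1 : ∀ v w e, ‖v‖ < r → ‖w‖ < r → T v (T w e) = T (v + w) e)
    {v : ℂ} (hv : ‖v‖ < r) : Fl T hr v = T v := by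
  rw [Fl_eq hr h1 (k := 0) (by simpa using hv)]
  simp [It]

theorem Fl_add (hr : 0 < r) (h1 : ∀ v w e, ‖v‖ < r → ‖w‖ < r → T v (T w e) = T (v + w) e)
    (v w : ℂ) (e : E) : Fl T hr v (Fl T hr w e) = Fl T hr (v + w) e := by
  obtain ⟨k₁, hk₁⟩ := exists_k hr v
  obtain ⟨k₂, hk₂⟩ := exists_k hr w
  obtain ⟨k₃, hk₃⟩ := exists_k hr (v + w)
  set k := max k₁ (max k₂ k₃) with hk
  have mono : ∀ (u : ℂ) (a : ℕ), a ≤ k → ‖u‖ / 2 ^ a < r → ‖u‖ / 2 ^ k < r := by
    intro u a ha h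
    refine lt_of_le_of_lt ?_ h
    exact div_le_div_of_nonneg_left (norm_nonneg _) (by positivity)
      (pow_le_pow_right₀ (by norm_num) ha)
  have h2 := mono v k₁ (le_max_left _ _) hk₁
  have h3 := mono w k₂ ((le_max_left _ _).trans (le_max_right _ _)) hk₂
  have h4 := mono (v + w) k₃ ((le_max_right _ _).trans (le_max_right _ _)) hk₃
  rw [Fl_eq hr h1 h2, Fl_eq hr h1 h3, Fl_eq hr h1 h4]
  rw [← norm_div_two_pow] at h2 h3
  unfold It
  have h5 : T ((v + w) / 2 ^ k) = T (v / 2 ^ k) ∘ T (w / 2 ^ k) := by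
    funext e
    simp only [Function.comp]
    rw [h1 _ _ _ h2 h3, add_div]
  have h6 : Function.Commute (T (v / 2 ^ k)) (T (w / 2 ^ k)) := by
    intro e
    rw [h1 _ _ _ h2 h3, h1 _ _ _ h3 h2, add_comm]
  rw [h5, h6.comp_iterate]
  rfl

theorem F_Fl {F : E → ℂ} (hr : 0 < r)
    (h1 : ∀ v w e, ‖v‖ < r → ‖w‖ < r → T v (T w e) = T (v + w) e)
    (h3 : ∀ v e, ‖v‖ < r → F (T v e) = F e + v) (v : ℂ) (e : E) :
    F (Fl T hr v e) = F e + v := by
  obtain ⟨k, hk⟩ := exists_k hr v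
  rw [Fl_eq hr h1 hk]
  rw [← norm_div_two_pow] at hk
  have h4 : ∀ n : ℕ, F ((T (v / 2 ^ k))^[n] e) = F e + n * (v / 2 ^ k) := by
    intro n
    induction n with
    | zero => simp
    | succ n ih =>
      rw [Function.iterate_succ_apply', h3 _ _ hk, ih]
      push_cast
      ring
  unfold It
  rw [h4]
  congr 1
  push_cast
  field_simp

theorem flow_bij [TopologicalSpace E] [PreconnectedSpace E] [Nonempty E] {F : E → ℂ}
    (hr : 0 < r) (h1 : ∀ v w e, ‖v‖ < r → ‖w‖ < r → T v (T w e) = T (v + w) e)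
    (h0 : ∀ e, T 0 e = e) (h3 : ∀ v e, ‖v‖ < r → F (T v e) = F e + v)
    (h4 : ∀ e, ∀ᶠ x in 𝓝 e, ∃ v, ‖v‖ < r ∧ T v e = x) : Function.Bijective F := by
  have hz : ∀ e, Fl T hr 0 e = e := by
    intro e
    rw [Fl_small hr h1 (by simpa using hr), h0]
  have key : ∀ e₀ e : E, ∃ v, Fl T hr v e₀ = e := by
    intro e₀
    let O : Set E := {e | ∃ v, Fl T hr v e₀ = e}
    have hO : IsOpen O := by
      rw [isOpen_iff_mem_nhds]
      rintro _ ⟨v, rfl⟩
      filter_upwards [h4 (Fl T hr v e₀)] with x hx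
      obtain ⟨u, hu, rfl⟩ := hx
      refine ⟨u + v, ?_⟩
      rw [← Fl_add hr h1, Fl_small hr h1 hu]
    have hOc : IsClosed O := by
      rw [← isOpen_compl_iff, isOpen_iff_mem_nhds]
      intro x hx
      filter_upwards [h4 x] with y hy
      obtain ⟨u, hu, rfl⟩ := hy
      rintro ⟨v, hv⟩
      apply hx
      refine ⟨-u + v, ?_⟩
      rw [← Fl_add hr h1, hv, ← Fl_small hr h1 hu, Fl_add hr h1, neg_add_cancel, hz]
    have hOu : O = univ := IsClopen.eq_univ ⟨hOc, hO⟩ ⟨e₀, 0, hz e₀⟩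
    intro e
    exact (hOu ▸ mem_univ e : e ∈ O)
  constructor
  · intro e e' h
    obtain ⟨v, rfl⟩ := key e e'
    rw [F_Fl hr h1 h3] at h
    have : v = 0 := by simpa using h
    rw [this, hz]
  · intro w
    obtain ⟨e⟩ := ‹Nonempty E›
    refine ⟨Fl T hr (w - F e) e, ?_⟩
    rw [F_Fl hr h1 h3]
    ring

end flow

/-- `F` has a section through `e` on the ball of radius `ρ`. -/
def Sec {E : Type*} [TopologicalSpace E] (F : E → ℂ) (ρ : ℝ) (e : E) : Prop :=
  ∃ s : ℂ → E, ContinuousOn s (ball (F e) ρ) ∧ (∀ w ∈ ball (F e) ρ, F (s w) = w) ∧ s (F e) = e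

theorem Sec.mono {E : Type*} [TopologicalSpace E] {F : E → ℂ} {ρ ρ' : ℝ} {e : E}
    (h : Sec F ρ e) (hρ : ρ' ≤ ρ) : Sec F ρ' e := by
  obtain ⟨s, h1, h2, h3⟩ := h
  exact ⟨s, h1.mono (ball_subset_ball hρ), fun w hw => h2 w (ball_subset_ball hρ hw), h3⟩

theorem exists_sec_compact {E : Type*} [TopologicalSpace E] {F : E → ℂ}
    (hF : IsLocalHomeomorph F) {K : Set E} (hK : IsCompact K) :
    ∃ ρ > 0, ∀ e ∈ K, Sec F ρ e := by
  refine hK.induction_on (p := fun K => ∃ ρ > 0, ∀ e ∈ K, Sec F ρ e) ?_ ?_ ?_ ?_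
  · exact ⟨1, one_pos, by simp⟩
  · rintro s t hst ⟨ρ, hρ, h⟩
    exact ⟨ρ, hρ, fun e he => h e (hst he)⟩
  · rintro s t ⟨ρ, hρ, h⟩ ⟨ρ', hρ', h'⟩
    refine ⟨min ρ ρ', lt_min hρ hρ', ?_⟩
    rintro e (he | he)
    · exact (h e he).mono (min_le_left _ _)
    · exact (h' e he).mono (min_le_right _ _)
  · intro e₀ _
    obtain ⟨φ, he₀, hφ⟩ := hF e₀
    obtain ⟨ε, hε, hball⟩ := Metric.mem_nhds_iff.mp
      (φ.open_target.mem_nhds (φ.map_source he₀))
    have hc : ContinuousAt F e₀ := hF.continuous.continuousAt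
    refine ⟨φ.source ∩ F ⁻¹' ball (F e₀) (ε / 2), ?_, ε / 2, by positivity, ?_⟩
    · apply mem_nhdsWithin_of_mem_nhds
      exact inter_mem (φ.open_source.mem_nhds he₀)
        (hc.preimage_mem_nhds (ball_mem_nhds _ (by positivity)))
    · rintro e ⟨he, he'⟩
      have hsub : ball (F e) (ε / 2) ⊆ φ.target := by
        refine Subset.trans ?_ hball
        rw [← hφ]
        refine ball_subset_ball' ?_
        have : dist (F e) (F e₀) < ε / 2 := he'
        linarith
      refine ⟨φ.symm, φ.continuousOn_symm.mono hsub, ?_, ?_⟩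
      · intro w hw
        have := φ.right_inv (hsub hw)
        rwa [← hφ] at this
      · have := φ.left_inv he
        rwa [← hφ] at this

/-- A local homeomorphism to `ℂ` with sections of uniform radius is bijective. -/
theorem bij_of_sec {E : Type*} [TopologicalSpace E] [T2Space E] [PreconnectedSpace E] [Nonempty E]
    {F : E → ℂ} (hF : IsLocalHomeomorph F) {ρ : ℝ} (hρ : 0 < ρ) (hs : ∀ e, Sec F ρ e) :
    Function.Bijective F := by
  choose s hs1 hs2 hs3 using hs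
  let T : ℂ → E → E := fun v e => s e (F e + v)
  have hmem : ∀ (v : ℂ) (e : E), ‖v‖ < ρ → F e + v ∈ ball (F e) ρ := by
    intro v e hv
    rw [mem_ball, dist_eq_norm]
    simpa using hv
  have h3 : ∀ v e, ‖v‖ < ρ → F (T v e) = F e + v := fun v e hv => hs2 e _ (hmem v e hv)
  have hsep : IsSeparatedMap F := T2Space.isSeparatedMap F
  have h1 : ∀ v w e, ‖v‖ < ρ / 2 → ‖w‖ < ρ / 2 → T v (T w e) = T (v + w) e := by
    intro v w e hv hw
    have hw' : ‖w‖ < ρ := by linarith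
    have h5 := h3 w e hw'
    have hvw : ‖w + v‖ < ρ := by
      have := norm_add_le w v
      linarith
    change s (T w e) (F (T w e) + v) = s e (F e + (v + w))
    rw [h5]
    have h6 : F e + w + v = F e + (v + w) := by ring
    rw [h6]
    have hpre : IsPreconnected (ball (F (T w e)) ρ ∩ ball (F e) ρ) :=
      ((convex_ball _ _).inter (convex_ball _ _)).isPreconnected
    refine hsep.eqOn_of_comp_eqOn hF.isLocallyInjective hpre ((hs1 (T w e)).mono inter_subset_left)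
      ((hs1 e).mono inter_subset_right) ?_ (a := F (T w e)) ⟨mem_ball_self hρ, ?_⟩ ?_ ⟨?_, ?_⟩
    · intro u hu
      simp only [Function.comp]
      rw [hs2 _ u hu.1, hs2 _ u hu.2]
    · rw [h5]; exact hmem w e hw'
    · rw [hs3, h5]
    · rw [h5, mem_ball, dist_eq_norm]
      have : F e + (v + w) - (F e + w) = v := by ring
      rw [this]; linarith
    · rw [mem_ball, dist_eq_norm]
      have : F e + (v + w) - F e = w + v := by ring
      rw [this]; exact hvw
  refine flow_bij (T := T) (r := ρ / 2) (by positivity) h1 ?_ (fun v e hv => h3 v e (by linarith)) ?_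
  · intro e
    change s e (F e + 0) = e
    rw [add_zero, hs3]
  · intro e
    obtain ⟨U, hU, hUo, hinj⟩ : ∃ U : Set E, e ∈ U ∧ IsOpen U ∧ InjOn F U := by
      obtain ⟨φ, he, hφ⟩ := hF e
      exact ⟨φ.source, he, φ.open_source, hφ ▸ φ.injOn⟩
    have hc : ContinuousAt F e := hF.continuous.continuousAt
    have h5 : ∀ᶠ x in 𝓝 e, F x ∈ ball (F e) (ρ / 2) :=
      hc.preimage_mem_nhds (ball_mem_nhds _ (by positivity))
    have h6 : ContinuousAt (fun x => s e (F x)) e := by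
      have h7 : ContinuousAt (s e) (F e) :=
        (hs1 e).continuousAt (ball_mem_nhds _ hρ)
      exact ContinuousAt.comp (g := s e) (f := F) h7 hc
    have h8 : ∀ᶠ x in 𝓝 e, s e (F x) ∈ U := by
      apply h6
      simp only
      rw [hs3]
      exact hUo.mem_nhds hU
    filter_upwards [h5, h8, hUo.mem_nhds hU] with x hx1 hx2 hx3
    refine ⟨F x - F e, by rwa [mem_ball, dist_eq_norm] at hx1, ?_⟩
    change s e (F e + (F x - F e)) = x
    rw [add_sub_cancel]
    refine hinj hx2 hx3 (hs2 e _ (ball_subset_ball (by linarith) hx1))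

end Vale.Agent.P281.H464
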