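import Vale.Agent.P281.H464.U0
import Vale.Agent.P281.H464.Flow

/-!
# P281 / H464: block U1 (genus one), from C2 and C3
-/

open Set Filter Metric Topology
open Vale.Agent.P281.H64

noncomputable section

namespace Vale.Agent.P281.H464

variable {E Γ : Type} [TopologicalSpace E] [T2Space E] [SimplyConnectedSpace E] [Group Γ]
  [MulAction Γ E] [ContinuousConstSMul Γ E]

omit [T2Space E] [SimplyConnectedSpace E] [ContinuousConstSMul Γ E] in
theorem add_const_mul {S : Sheets E Γ} {h : E → ℂ} {c : Γ → ℂ} (H : Add S h c) (s : ℂ) :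
    Add S (fun e => s * h e) (fun γ => s * c γ) where
  hol i := (H.hol i).const_mul s
  add γ e := by rw [H.add]; ring

omit [T2Space E] [SimplyConnectedSpace E] [ContinuousConstSMul Γ E] in
theorem add_sub {S : Sheets E Γ} {h h' : E → ℂ} {c c' : Γ → ℂ} (H : Add S h c) (H' : Add S h' c') :
    Add S (fun e => h e - h' e) (fun γ => c γ - c' γ) where
  hol i := (H.hol i).sub (H'.hol i)
  add γ e := by rw [H.add, H'.add]; ring

omit [T2Space E] [ContinuousConstSMul Γ E] in
theorem period_hom {S : Sheets E Γ} {h : E → ℂ} {c : Γ → ℂ} (H : Add S h c) (x y : Γ) :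
    c (x * y) = c x + c y := by
  obtain ⟨e⟩ : Nonempty E := inferInstance
  have h1 := H.add (x * y) e
  rw [mul_smul, H.add, H.add] at h1
  linear_combination -h1

/-- Genus one: all the additive functions are multiples of one. -/
theorem span_one (c2 : C2Stmt) {S : Sheets E Γ} {F : E → ℂ} {c : Γ → ℂ} (M : Mark Γ 2)
    (H : Add S F c) (hne : ∃ e e', F e ≠ F e') {h : E → ℂ} {b : Γ → ℂ} (hh : Add S h b) :
    ∃ s : ℂ, ∀ e e', h e - s * F e = h e' - s * F e' := by
  have huniq := (c2 E Γ S).2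
  let L : ℂ →ₗ[ℝ] (Fin 2 → ℝ) :=
    { toFun := fun s k => (s * c (M.g k)).re
      map_add' := by
        intro s t; funext k; simp only [Pi.add_apply]; rw [add_mul, Complex.add_re]
      map_smul' := by
        intro s t; funext k
        simp only [Pi.smul_apply, RingHom.id_apply, smul_eq_mul]
        rw [Complex.real_smul, mul_assoc, Complex.re_ofReal_mul] }
  have hzero : ∀ (h : E → ℂ) (b : Γ → ℂ), Add S h b → (∀ k, (b (M.g k)).re = 0) →
      ∀ e e', h e = h e' := by
    intro h b hh hb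
    refine huniq h b hh ?_
    intro γ
    rw [M.complete (fun γ => (b γ).re) (fun x y => by rw [period_hom hh, Complex.add_re]) γ]
    simp [hb]
  have hinj : Function.Injective L := by
    rw [← LinearMap.ker_eq_bot, LinearMap.ker_eq_bot']
    intro s hs
    by_contra hs0
    obtain ⟨e, e', hee⟩ := hne
    have h1 := hzero _ _ (add_const_mul H s) (fun k => congrFun hs k) e e'
    exact hee (mul_left_cancel₀ hs0 h1)
  have hsurj : Function.Surjective L := by
    refine (LinearMap.injective_iff_surjective_of_finrank_eq_finrank ?_).mp hinj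
    rw [Complex.finrank_real_complex]; simp
  obtain ⟨s, hs⟩ := hsurj (fun k => (b (M.g k)).re)
  refine ⟨s, ?_⟩
  refine hzero _ _ (add_sub hh (add_const_mul H s)) ?_
  intro k
  have := congrFun hs k
  change (s * c (M.g k)).re = (b (M.g k)).re at this
  rw [Complex.sub_re, this, sub_self]

/-- No critical points in genus one. -/
theorem no_crit (c2 : C2Stmt) (c3 : C3Stmt) {S : Sheets E Γ} {F : E → ℂ} {c : Γ → ℂ}
    (M : Mark Γ 2) (H : Add S F c) (hne : ∃ e e', F e ≠ F e') (i : Fin S.N) {z : ℂ}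
    (hz : z ∈ ball (0 : ℂ) 3) : deriv (fun u => F (S.σ i u)) z ≠ 0 := by
  intro hd
  obtain ⟨γ, j, z₀, hz₀, hγ⟩ := S.cover (S.σ i z)
  have h1 : S.σ j z₀ = γ⁻¹ • S.σ i z := by rw [← hγ, inv_smul_smul]
  obtain ⟨θ, hθ, hθz, hev⟩ := S.hol j i z₀ (lt3 hz₀) z hz γ⁻¹ h1
  have h2 := deriv_change S hz hθ hθz hev (h := F) (s := c γ⁻¹) (H.add _)
    (add_diffAt H i hz).differentiableAt
  rw [hd, zero_mul] at h2
  have h3 : ∀ h b, Add S h b → deriv (fun z => h (S.σ j z)) z₀ = 0 := by
    intro h b hh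
    obtain ⟨s, hs⟩ := span_one c2 M H hne hh
    have h4 : (fun z => h (S.σ j z)) = fun z => s * F (S.σ j z) +
        (h (S.σ j z₀) - s * F (S.σ j z₀)) := by
      funext u
      have := hs (S.σ j u) (S.σ j z₀)
      linear_combination this
    rw [h4, deriv_add_const, deriv_const_mul _ (add_diffAt H j (lt3 hz₀)).differentiableAt, h2,
      mul_zero]
  obtain ⟨m, k, hm1, hm2, hm3, hm4⟩ := c3 E Γ S j z₀ hz₀ h3
  have HM : Mero S j m z₀ k := ⟨hz₀, hm1, hm2, hm3, hm4⟩
  obtain ⟨e, e', hee⟩ := hne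
  exact hee ((c2 E Γ S).2 F c H (fun γ => by rw [add_trivial HM H]; simp) e e')

omit [T2Space E] [SimplyConnectedSpace E] in
/-- A holomorphic additive function without critical points is a local homeomorphism. -/
theorem isLocalHomeo {S : Sheets E Γ} {F : E → ℂ} {c : Γ → ℂ} (H : Add S F c)
    (hd : ∀ i, ∀ z ∈ ball (0 : ℂ) 3, deriv (fun z => F (S.σ i z)) z ≠ 0) :
    IsLocalHomeomorph F ∧ IsOpenMap F := by
  have hmap : ∀ e, map F (𝓝 e) = 𝓝 (F e) := by
    intro e
    obtain ⟨γ, i, z, hz, rfl⟩ := S.cover e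
    rw [← nhds_sheet S γ i (lt3 hz), Filter.map_map, H.add]
    have hs := (add_diffAt H i (lt3 hz)).hasStrictDerivAt
    have h1 := hs.map_nhds_eq (hd i z (lt3 hz))
    have h2 : (F ∘ fun u => γ • S.σ i u) = (fun w => w + c γ) ∘ fun u => F (S.σ i u) := by
      funext u
      simp only [Function.comp]
      rw [H.add]
    rw [h2, ← Filter.map_map, h1]
    exact (Homeomorph.addRight (c γ)).map_nhds_eq _
  have hc : Continuous F := continuous_iff_continuousAt.mpr fun e => (hmap e).le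
  have ho : IsOpenMap F := isOpenMap_iff_nhds_le.mpr fun e => (hmap e).ge
  refine ⟨?_, ho⟩
  rw [isLocalHomeomorph_iff_isOpenEmbedding_restrict]
  intro e
  obtain ⟨γ, i, z, hz, rfl⟩ := S.cover e
  have hs := (add_diffAt H i (lt3 hz)).hasStrictDerivAt
  have h1 := hs.eventually_left_inverse (hd i z (lt3 hz))
  have h2 : (fun u => γ • S.σ i u) '' {u | hs.localInverse _ _ _ (hd i z (lt3 hz))
      (F (S.σ i u)) = u} ∈ 𝓝 (γ • S.σ i z) := by
    rw [← nhds_sheet S γ i (lt3 hz)]
    exact image_mem_map h1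
  obtain ⟨U, hU, hUo, heU⟩ := mem_nhds_iff.mp h2
  refine ⟨U, hUo.mem_nhds heU, ?_⟩
  refine IsOpenEmbedding.of_continuous_injective_isOpenMap (hc.comp continuous_subtype_val) ?_
    (ho.comp hUo.isOpenMap_subtype_val)
  rw [← injOn_iff_injective]
  intro a ha b hb hab
  obtain ⟨u, hu, rfl⟩ := hU ha
  obtain ⟨v, hv, rfl⟩ := hU hb
  simp only at hab
  rw [H.add, H.add, add_left_inj] at hab
  rw [← hu, ← hv, hab]

/-- **U1** -/
theorem u1 (c2 : C2Stmt) (c3 : C3Stmt) : U1Stmt := by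
  intro E Γ _ _ _ _ _ _ S F c M H hne
  have hd : ∀ i, ∀ z ∈ ball (0 : ℂ) 3, deriv (fun z => F (S.σ i z)) z ≠ 0 :=
    fun i z hz => no_crit c2 c3 M H hne i hz
  obtain ⟨hloc, hopen⟩ := isLocalHomeo H hd
  obtain ⟨ρ, hρ, hsec⟩ := exists_sec_compact hloc (isCompact_KK S)
  have hsec' : ∀ e, Sec F ρ e := by
    intro e
    obtain ⟨γ, hγ⟩ := exists_mem_KK S e
    obtain ⟨s, h1, h2, h3⟩ := hsec _ hγ
    rw [H.add] at h1 h2 h3
    have hmaps : MapsTo (fun w : ℂ => w + c γ) (ball (F e) ρ) (ball (F e + c γ) ρ) := by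
      intro w hw
      simpa [mem_ball] using hw
    refine ⟨fun w => γ⁻¹ • s (w + c γ), ?_, ?_, ?_⟩
    · refine ContinuousOn.const_smul ?_ γ⁻¹
      exact h1.comp (by fun_prop) hmaps
    · intro w hw
      have h4 := h2 _ (hmaps hw)
      have h5 := H.add γ (γ⁻¹ • s (w + c γ))
      rw [smul_inv_smul, h4] at h5
      linear_combination -h5
    · simp only
      rw [h3, inv_smul_smul]
  refine ⟨bij_of_sec hloc hρ hsec', hopen, ?_, hd⟩
  intro γ γ' hγ
  obtain ⟨e⟩ : Nonempty E := inferInstance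
  obtain ⟨δ, i, z, hz, rfl⟩ := S.cover e
  have h1 : F (γ • S.σ i z) = F (γ' • S.σ i z) := by rw [H.add, H.add, hγ]
  have h2 := (bij_of_sec hloc hρ hsec').1 h1
  have h3 : (γ'⁻¹ * γ) • S.σ i z = S.σ i z := by rw [mul_smul, h2, inv_smul_smul]
  have h4 := (S.inj i z (lt3 hz) z (lt3 hz) _ h3).1
  rwa [inv_mul_eq_one, eq_comm] at h4

end Vale.Agent.P281.H464
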