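import Mathlib

/-!
# P281 / H464: topological and local lemmas for the blocks U0, U1

* `cover_lemma`: an open invariant map to a connected Hausdorff space, with compact source modulo
  the group, with local alternatives (locally injective modulo the group, or locally at least
  two-to-one outside the value) is injective modulo the group as soon as it is over one point.
* `two_pre`: local behaviour of a holomorphic function at a critical point.
-/

open Set Filter Metric Topology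

namespace Vale.Agent.P281.H464

section
variable {E Γ Y : Type*} [TopologicalSpace E] [Group Γ] [MulAction Γ E] [TopologicalSpace Y]

/-- `f` is injective modulo `Γ` near `e`. -/
def Good (Γ : Type*) [Group Γ] [MulAction Γ E] (f : E → Y) (e : E) : Prop :=
  ∃ V ∈ 𝓝 e, ∀ v ∈ V, ∀ v' ∈ V, f v = f v' → ∃ γ : Γ, γ • v = v'

/-- `f` takes all the values near `f e`, except `f e`, at least twice modulo `Γ` near `e`. -/
def Bad (Γ : Type*) [Group Γ] [MulAction Γ E] (f : E → Y) (e : E) : Prop :=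
  ∀ V ∈ 𝓝 e, ∀ᶠ y in 𝓝[≠] f e, ∃ v ∈ V, ∃ v' ∈ V, f v = y ∧ f v' = y ∧ ∀ γ : Γ, γ • v ≠ v'

theorem cover_lemma [ContinuousConstSMul Γ E] [T2Space Y] [ConnectedSpace Y] {K : Set E}
    (hK : IsCompact K) (hKc : ∀ e : E, ∃ γ : Γ, γ • e ∈ K) {f : E → Y} (hf : Continuous f)
    (hinv : ∀ (γ : Γ) e, f (γ • e) = f e) (hopen : IsOpenMap f)
    (hsep : ∀ e e' : E, (∀ γ : Γ, γ • e ≠ e') →
      ∃ V ∈ 𝓝 e, ∃ V' ∈ 𝓝 e', ∀ γ : Γ, ∀ v ∈ V, γ • v ∉ V')
    (halt : ∀ e, Good Γ f e ∨ Bad Γ f e)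
    {e₀ : E} (h0 : ∀ e, f e = f e₀ → ∃ γ : Γ, γ • e₀ = e) (h0' : Good Γ f e₀) :
    Function.Surjective f ∧ (∀ e e', f e = f e' → ∃ γ : Γ, γ • e = e') ∧ ∀ e, Good Γ f e := by
  have hclosed : ∀ C : Set E, IsClosed C → (∀ (γ : Γ) e, e ∈ C → γ • e ∈ C) →
      IsClosed (f '' C) := by
    intro C hC hinvC
    have h1 : f '' C = f '' (K ∩ C) := by
      ext y
      constructor
      · rintro ⟨e, he, rfl⟩
        obtain ⟨γ, hγ⟩ := hKc e
        exact ⟨γ • e, ⟨hγ, hinvC γ e he⟩, hinv γ e⟩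
      · rintro ⟨e, he, rfl⟩
        exact ⟨e, he.2, rfl⟩
    rw [h1]
    exact ((hK.inter_right hC).image hf).isClosed
  have hsurj : Function.Surjective f := by
    have h1 : IsClopen (range f) := by
      refine ⟨?_, hopen.isOpen_range⟩
      rw [← image_univ]
      exact hclosed univ isClosed_univ (fun _ _ _ => mem_univ _)
    have h2 := h1.eq_univ ⟨f e₀, e₀, rfl⟩
    exact range_eq_univ.mp h2
  have htrans : ∀ (γ : Γ) (e : E), Good Γ f e → Good Γ f (γ • e) := by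
    rintro γ e ⟨V, hV, hVg⟩
    refine ⟨(fun x => γ⁻¹ • x) ⁻¹' V, ?_, ?_⟩
    · have : Tendsto (fun x : E => γ⁻¹ • x) (𝓝 (γ • e)) (𝓝 e) := by
        have := (continuous_const_smul γ⁻¹ : Continuous fun x : E => γ⁻¹ • x).tendsto (γ • e)
        simpa using this
      exact this hV
    · intro v hv v' hv' h
      obtain ⟨δ, hδ⟩ := hVg _ hv _ hv' (by rw [hinv, hinv, h])
      refine ⟨γ * δ * γ⁻¹, ?_⟩
      rw [mul_smul, mul_smul, hδ, smul_inv_smul]
  let A : Set Y := {y | (∀ e e', f e = y → f e' = y → ∃ γ : Γ, γ • e = e') ∧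
    ∀ e, f e = y → Good Γ f e}
  have hA0 : f e₀ ∈ A := by
    refine ⟨?_, ?_⟩
    · intro e e' h h'
      obtain ⟨γ, rfl⟩ := h0 e h
      obtain ⟨γ', rfl⟩ := h0 e' h'
      exact ⟨γ' * γ⁻¹, by rw [mul_smul, inv_smul_smul]⟩
    · intro e h
      obtain ⟨γ, rfl⟩ := h0 e h
      exact htrans γ e₀ h0'
  have hAo : IsOpen A := by
    rw [isOpen_iff_mem_nhds]
    intro y hy
    obtain ⟨e, rfl⟩ := hsurj y
    obtain ⟨V, hV, hVg⟩ := hy.2 e rfl
    obtain ⟨V₁, hV₁, hV₁o, heV₁⟩ := mem_nhds_iff.mp hV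
    let O : Set E := ⋃ γ : Γ, (fun x => γ • x) ⁻¹' V₁
    have hO : IsOpen O := isOpen_iUnion fun γ => hV₁o.preimage (continuous_const_smul γ)
    have hOinv : ∀ (γ : Γ) x, x ∈ Oᶜ → γ • x ∈ Oᶜ := by
      intro γ x hx hx'
      obtain ⟨δ, hδ⟩ := mem_iUnion.mp hx'
      exact hx (mem_iUnion.mpr ⟨δ * γ, by simpa [mul_smul] using hδ⟩)
    have hC := hclosed Oᶜ hO.isClosed_compl hOinv
    have hyC : f e ∉ f '' Oᶜ := by
      rintro ⟨x, hx, hxe⟩
      obtain ⟨γ, hγ⟩ := hy.1 x e hxe rfl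
      exact hx (mem_iUnion.mpr ⟨γ, by simpa [hγ] using heV₁⟩)
    filter_upwards [hC.isOpen_compl.mem_nhds hyC] with y' hy'
    have hmem : ∀ x, f x = y' → ∃ γ : Γ, γ • x ∈ V₁ := by
      intro x hx
      by_contra hcon
      exact hy' ⟨x, fun hxO => hcon (mem_iUnion.mp hxO), hx⟩
    refine ⟨?_, ?_⟩
    · intro x x' hx hx'
      obtain ⟨γ, hγ⟩ := hmem x hx
      obtain ⟨γ', hγ'⟩ := hmem x' hx'
      obtain ⟨δ, hδ⟩ := hVg _ (hV₁ hγ) _ (hV₁ hγ') (by rw [hinv, hinv, hx, hx'])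
      refine ⟨γ'⁻¹ * δ * γ, ?_⟩
      rw [mul_smul, mul_smul, hδ, inv_smul_smul]
    · intro x hx
      obtain ⟨γ, hγ⟩ := hmem x hx
      have h1 : Good Γ f (γ • x) := ⟨V₁, hV₁o.mem_nhds hγ, fun v hv v' hv' h =>
        hVg v (hV₁ hv) v' (hV₁ hv') h⟩
      have h2 := htrans γ⁻¹ _ h1
      rwa [inv_smul_smul] at h2
  have hAc : IsClosed A := by
    rw [← closure_subset_iff_isClosed]
    intro y hy
    by_contra hyA
    have hfreq : ∀ P : Y → Prop, (∀ᶠ y' in 𝓝[≠] y, P y') → ∃ y' ∈ A, P y' := by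
      intro P hP
      rw [eventually_nhdsWithin_iff] at hP
      obtain ⟨y', h1, h2⟩ := mem_closure_iff_nhds.mp hy _ hP
      exact ⟨y', h2, h1 (fun h => hyA (h ▸ h2))⟩
    have hone : ∀ e e', f e = y → f e' = y → ∃ γ : Γ, γ • e = e' := by
      intro e e' he he'
      by_contra hcon
      push Not at hcon
      obtain ⟨V, hV, V', hV', hVV⟩ := hsep e e' hcon
      have h1 : f '' V ∈ 𝓝 y := he ▸ hopen.image_mem_nhds hV
      have h2 : f '' V' ∈ 𝓝 y := he' ▸ hopen.image_mem_nhds hV'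
      obtain ⟨y', hy', ⟨v, hv, hvy⟩, v', hv', hvy'⟩ := hfreq (fun y' => y' ∈ f '' V ∧ y' ∈ f '' V')
        ((show ∀ᶠ y' in 𝓝 y, y' ∈ f '' V ∧ y' ∈ f '' V' from
          Filter.inter_mem h1 h2).filter_mono nhdsWithin_le_nhds)
      obtain ⟨γ, hγ⟩ := hy'.1 v v' hvy hvy'
      exact hVV γ v hv (hγ ▸ hv')
    refine hyA ⟨hone, ?_⟩
    rintro e rfl
    rcases halt e with h | h
    · exact h
    · exfalso
      obtain ⟨y', hy', v, -, v', -, h1, h2, h3⟩ := hfreq _ (h univ univ_mem)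
      obtain ⟨γ, hγ⟩ := hy'.1 v v' h1 h2
      exact h3 γ hγ
  have hA : A = univ := IsClopen.eq_univ ⟨hAc, hAo⟩ ⟨_, hA0⟩
  refine ⟨hsurj, ?_, ?_⟩
  · intro e e' h
    have : f e' ∈ A := hA ▸ mem_univ _
    exact this.1 e e' h rfl
  · intro e
    have : f e ∈ A := hA ▸ mem_univ _
    exact this.2 e rfl

end

/-- At a critical point, a nonconstant holomorphic function takes all the nearby values at least
twice. -/
theorem two_pre {f : ℂ → ℂ} {z₀ : ℂ} (hfa : AnalyticAt ℂ f z₀)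
    (hnz : ¬ ∀ᶠ z in 𝓝 z₀, f z = f z₀) (hd : deriv f z₀ = 0) {U : Set ℂ} (hU : U ∈ 𝓝 z₀) :
    ∀ᶠ y in 𝓝[≠] f z₀, ∃ z₁ ∈ U, ∃ z₂ ∈ U, z₁ ≠ z₂ ∧ f z₁ = y ∧ f z₂ = y := by
  have hφ : AnalyticAt ℂ (fun z => f z - f z₀) z₀ := hfa.sub analyticAt_const
  have hnz : ¬ ∀ᶠ z in 𝓝 z₀, f z - f z₀ = 0 := by
    simpa only [sub_eq_zero] using hnz
  obtain ⟨n, g, hg, hg0, hgn⟩ := (hφ.exists_eventuallyEq_pow_smul_nonzero_iff).mpr hnz
  have hn0 : n ≠ 0 := by
    rintro rfl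
    have := hgn.self_of_nhds
    simp at this
    exact hg0 this.symm
  have hn1 : n ≠ 1 := by
    rintro rfl
    have h1 : HasDerivAt (fun z => (z - z₀) ^ 1 • g z) (g z₀) z₀ := by
      have := ((hasDerivAt_id z₀).sub_const z₀).fun_mul hg.differentiableAt.hasDerivAt
      simpa using this
    have h2 : HasDerivAt (fun z => f z - f z₀) (g z₀) z₀ := h1.congr_of_eventuallyEq hgn
    have h3 : HasDerivAt (fun z => f z - f z₀) (deriv f z₀) z₀ :=
      (hfa.differentiableAt.hasDerivAt).sub_const _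
    exact hg0 ((h2.unique h3).trans hd)
  obtain ⟨c, hc⟩ := IsAlgClosed.exists_pow_nat_eq (g z₀) (Nat.pos_of_ne_zero hn0)
  have hc0 : c ≠ 0 := by
    rintro rfl
    rw [zero_pow hn0] at hc
    exact hg0 hc.symm
  set k : ℂ → ℂ := fun z => Complex.exp (Complex.log (g z / g z₀) / n) with hk
  have hnC : (n : ℂ) ≠ 0 := by exact_mod_cast hn0
  have hkn : ∀ᶠ z in 𝓝 z₀, k z ^ n = g z / g z₀ := by
    have : ∀ᶠ z in 𝓝 z₀, g z ≠ 0 := hg.continuousAt.eventually_ne hg0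
    filter_upwards [this] with z hz
    rw [hk]
    simp only
    rw [← Complex.exp_nat_mul, mul_div_cancel₀ _ hnC, Complex.exp_log (div_ne_zero hz hg0)]
  have hk0 : k z₀ = 1 := by simp [hk, div_self hg0]
  have hkd : AnalyticAt ℂ k z₀ := by
    have h1 : AnalyticAt ℂ (fun z => g z / g z₀) z₀ := hg.div analyticAt_const hg0
    have h2 : AnalyticAt ℂ (fun z => Complex.log (g z / g z₀)) z₀ := by
      apply h1.clog
      rw [div_self hg0]
      exact Complex.one_mem_slitPlane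
    exact (h2.div analyticAt_const hnC).cexp
  set h : ℂ → ℂ := fun z => (z - z₀) * (c * k z) with hh
  have hha : AnalyticAt ℂ h z₀ := by
    exact (analyticAt_id.sub analyticAt_const).mul (analyticAt_const.mul hkd)
  have hhd : HasDerivAt h c z₀ := by
    have := ((hasDerivAt_id z₀).sub_const z₀).mul
      ((hasDerivAt_const z₀ c).mul hkd.differentiableAt.hasDerivAt)
    refine this.congr_deriv ?_
    simp [hk0]
  have hhs : HasStrictDerivAt h c z₀ := by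
    have := hha.hasStrictDerivAt
    rwa [hhd.deriv] at this
  have hmap : map h (𝓝 z₀) = 𝓝 (h z₀) := hhs.map_nhds_eq hc0
  have hh0 : h z₀ = 0 := by simp [hh]
  have hpow : ∀ᶠ z in 𝓝 z₀, f z - f z₀ = h z ^ n := by
    filter_upwards [hgn, hkn] with z h1 h2
    rw [h1, hh]
    simp only
    rw [mul_pow, mul_pow, h2, hc, smul_eq_mul]
    field_simp
  have hV : {z | f z - f z₀ = h z ^ n ∧ z ∈ U} ∈ 𝓝 z₀ := hpow.and hU
  have himg : h '' {z | f z - f z₀ = h z ^ n ∧ z ∈ U} ∈ 𝓝 (0 : ℂ) := by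
    have h1 := image_mem_map (m := h) hV
    rwa [hmap, hh0] at h1
  obtain ⟨ε, hε, hball⟩ := Metric.mem_nhds_iff.mp himg
  have hprim := Complex.isPrimitiveRoot_exp n hn0
  set ω := Complex.exp (2 * Real.pi * Complex.I / n) with hω
  have hω1 : ω ≠ 1 := hprim.ne_one (by omega)
  have hωn : ω ^ n = 1 := hprim.pow_eq_one
  have hωnorm : ‖ω‖ = 1 := Complex.norm_eq_one_of_pow_eq_one hωn hn0
  rw [eventually_nhdsWithin_iff]
  filter_upwards [Metric.ball_mem_nhds (f z₀) (pow_pos hε n)] with y hy hy0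
  obtain ⟨w, hw⟩ := IsAlgClosed.exists_pow_nat_eq (y - f z₀) (Nat.pos_of_ne_zero hn0)
  have hwn : ‖w‖ < ε := by
    rw [mem_ball, dist_eq_norm, ← hw, norm_pow] at hy
    exact lt_of_pow_lt_pow_left₀ n hε.le hy
  have hw0 : w ≠ 0 := by
    rintro rfl
    rw [zero_pow hn0] at hw
    exact hy0 (by simpa [eq_comm, sub_eq_zero] using hw)
  have hw1 : w ∈ ball (0 : ℂ) ε := by rwa [mem_ball_zero_iff]
  have hw2 : ω * w ∈ ball (0 : ℂ) ε := by
    rw [mem_ball_zero_iff, norm_mul, hωnorm, one_mul]; exact hwn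
  obtain ⟨z1, ⟨h11, h12⟩, h13⟩ := hball hw1
  obtain ⟨z2, ⟨h21, h22⟩, h23⟩ := hball hw2
  refine ⟨z1, h12, z2, h22, ?_, ?_, ?_⟩
  · rintro rfl
    rw [h13] at h23
    exact hω1 (mul_right_cancel₀ hw0 (by rw [← h23, one_mul]))
  · rw [h13, hw] at h11
    exact sub_left_injective h11
  · rw [h23, mul_pow, hωn, one_mul, hw] at h21
    exact sub_left_injective h21

end Vale.Agent.P281.H464
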