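import Vale.Agent.P281.H64.Spec
import Vale.Agent.P281.H464.Topo

/-!
# P281 / H464: basic topology of the sheets
-/

open Set Filter Metric Topology
open Vale.Agent.P281.H64

namespace Vale.Agent.P281.H464

variable {E Γ : Type} [TopologicalSpace E] [Group Γ] [MulAction Γ E]

theorem map_smul_nhds [ContinuousConstSMul Γ E] (γ : Γ) (e : E) :
    map (fun x : E => γ • x) (𝓝 e) = 𝓝 (γ • e) :=
  (Homeomorph.smul γ).map_nhds_eq e

theorem nhds_sheet [ContinuousConstSMul Γ E] (S : Sheets E Γ) (γ : Γ) (i : Fin S.N) {z : ℂ}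
    (hz : z ∈ ball (0 : ℂ) 3) :
    map (fun u => γ • S.σ i u) (𝓝 z) = 𝓝 (γ • S.σ i z) := by
  rw [← map_smul_nhds, ← S.map_nhds i z hz, map_map]
  rfl

theorem tendsto_sheet [ContinuousConstSMul Γ E] (S : Sheets E Γ) (γ : Γ) (i : Fin S.N) {z : ℂ}
    (hz : z ∈ ball (0 : ℂ) 3) :
    Tendsto (fun u => γ • S.σ i u) (𝓝 z) (𝓝 (γ • S.σ i z)) :=
  (nhds_sheet S γ i hz).le

theorem continuousAt_sheet (S : Sheets E Γ) (i : Fin S.N) {z : ℂ}
    (hz : z ∈ ball (0 : ℂ) 3) : ContinuousAt (S.σ i) z :=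
  (S.map_nhds i z hz).le

theorem continuousOn_sheet (S : Sheets E Γ) (i : Fin S.N) :
    ContinuousOn (S.σ i) (ball (0 : ℂ) 3) :=
  fun _ hz => (continuousAt_sheet S i hz).continuousWithinAt

/-- A compact set which meets all the orbits. -/
def KK (S : Sheets E Γ) : Set E := ⋃ i, S.σ i '' closedBall 0 1

theorem isCompact_KK (S : Sheets E Γ) : IsCompact (KK S) := by
  refine isCompact_iUnion fun i => (isCompact_closedBall 0 1).image_of_continuousOn ?_
  exact (continuousOn_sheet S i).mono (closedBall_subset_ball (by norm_num))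

theorem lt3 {z : ℂ} (hz : ‖z‖ < 1) : z ∈ ball (0 : ℂ) 3 := by
  rw [mem_ball_zero_iff]; linarith

theorem exists_mem_KK (S : Sheets E Γ) (e : E) : ∃ γ : Γ, γ • e ∈ KK S := by
  obtain ⟨γ, i, z, hz, rfl⟩ := S.cover e
  refine ⟨γ⁻¹, ?_⟩
  rw [inv_smul_smul]
  exact mem_iUnion.mpr ⟨i, z, by rw [mem_closedBall_zero_iff]; exact hz.le, rfl⟩

theorem exists_sep [ContinuousConstSMul Γ E] (S : Sheets E Γ) (e e' : E)
    (h : ∀ γ : Γ, γ • e ≠ e') : ∃ V ∈ 𝓝 e, ∃ V' ∈ 𝓝 e', ∀ γ : Γ, ∀ v ∈ V, γ • v ∉ V' := by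
  obtain ⟨γ₁, i, z, hz, rfl⟩ := S.cover e
  by_cases he' : e' ∈ {e : E | ∃ (γ : Γ) (z : ℂ), ‖z‖ ≤ 1 ∧ γ • S.σ i z = e}
  · obtain ⟨γ₂, w, hw, rfl⟩ := he'
    have hw3 : w ∈ ball (0 : ℂ) 3 := by rw [mem_ball_zero_iff]; linarith
    have hne : z ≠ w := by
      rintro rfl
      exact h (γ₂ * γ₁⁻¹) (by rw [mul_smul, inv_smul_smul])
    obtain ⟨U, U', hU, hU', hzU, hwU', hUU⟩ := t2_separation hne
    refine ⟨(fun u => γ₁ • S.σ i u) '' (U ∩ ball 0 3), ?_,
      (fun u => γ₂ • S.σ i u) '' (U' ∩ ball 0 3), ?_, ?_⟩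
    · rw [← nhds_sheet S γ₁ i (lt3 hz)]
      exact image_mem_map (inter_mem (hU.mem_nhds hzU) (isOpen_ball.mem_nhds (lt3 hz)))
    · rw [← nhds_sheet S γ₂ i hw3]
      exact image_mem_map (inter_mem (hU'.mem_nhds hwU') (isOpen_ball.mem_nhds hw3))
    · rintro γ _ ⟨u, ⟨hu, hu3⟩, rfl⟩ ⟨u', ⟨hu', hu3'⟩, huu⟩
      have h1 : (γ₂⁻¹ * γ * γ₁) • S.σ i u = S.σ i u' := by
        rw [mul_smul, mul_smul]
        simp only at huu
        rw [← huu, inv_smul_smul]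
      have h2 := (S.inj i u hu3 u' hu3' _ h1).2
      subst h2
      exact disjoint_left.mp hUU hu hu'
  · refine ⟨(fun u => γ₁ • S.σ i u) '' (ball 0 1), ?_, _,
      (S.closed i 1 (by norm_num)).isOpen_compl.mem_nhds he', ?_⟩
    · rw [← nhds_sheet S γ₁ i (lt3 hz)]
      exact image_mem_map (isOpen_ball.mem_nhds (by rwa [mem_ball_zero_iff]))
    · rintro γ _ ⟨u, hu, rfl⟩ hu'
      rw [mem_ball_zero_iff] at hu
      exact hu' ⟨γ * γ₁, u, hu.le, by rw [mul_smul]⟩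

/-- Change of sheet for a function which is invariant up to a constant: the derivatives. -/
theorem deriv_change (S : Sheets E Γ) {i j : Fin S.N} {z w : ℂ}
    (hw : w ∈ ball (0 : ℂ) 3) {γ : Γ} {θ : ℂ → ℂ}
    (hθ : AnalyticAt ℂ θ z) (hθz : θ z = w) (hev : ∀ᶠ u in 𝓝 z, S.σ i u = γ • S.σ j (θ u))
    {h : E → ℂ} {s : ℂ} (hh : ∀ e, h (γ • e) = h e + s)
    (hd : DifferentiableAt ℂ (fun u => h (S.σ j u)) w) :
    deriv (fun u => h (S.σ i u)) z = deriv (fun u => h (S.σ j u)) w * deriv θ z := by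
  have h1 : (fun u => h (S.σ i u)) =ᶠ[𝓝 z] fun u => h (S.σ j (θ u)) + s := by
    filter_upwards [hev] with u hu
    rw [hu, hh]
  rw [h1.deriv_eq, deriv_add_const]
  subst hθz
  exact deriv_comp (h₂ := fun u => h (S.σ j u)) z hd hθ.differentiableAt

theorem add_diffAt {S : Sheets E Γ} {h : E → ℂ} {c : Γ → ℂ} (H : Add S h c) (j : Fin S.N) {z : ℂ}
    (hz : z ∈ ball (0 : ℂ) 3) : AnalyticAt ℂ (fun u => h (S.σ j u)) z :=
  (H.hol j).analyticAt (isOpen_ball.mem_nhds hz)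

/-- A function on `E` with vanishing derivatives in the sheets is constant. -/
theorem const_of_deriv [ContinuousConstSMul Γ E] [PreconnectedSpace E] (S : Sheets E Γ)
    {h : E → ℂ} {c : Γ → ℂ} (H : Add S h c)
    (hd : ∀ j, ∀ z ∈ ball (0 : ℂ) 3, deriv (fun u => h (S.σ j u)) z = 0) (e e' : E) :
    h e = h e' := by
  have hloc : IsLocallyConstant h := by
    rw [IsLocallyConstant.iff_eventually_eq]
    intro e
    obtain ⟨γ, i, z, hz, rfl⟩ := S.cover e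
    rw [← nhds_sheet S γ i (lt3 hz), eventually_map]
    filter_upwards [isOpen_ball.mem_nhds (lt3 hz)] with u hu
    rw [H.add, H.add]
    congr 1
    refine (convex_ball (0 : ℂ) 3).is_const_of_fderivWithin_eq_zero (𝕜 := ℂ) (H.hol i) ?_ hu
      (lt3 hz)
    intro x hx
    rw [fderivWithin_of_isOpen isOpen_ball hx]
    ext
    simpa using hd i x hx
  exact IsLocallyConstant.apply_eq_of_isPreconnected hloc isPreconnected_univ (mem_univ _)
    (mem_univ _)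

end Vale.Agent.P281.H464
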